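import Mathlib

/-!
# P194: direct finiteness for elements supported on at most two group elements
If `a = α g + β h` in `K[G]` and `a b = 1`, then `b a = 1` (any field `K`, any group `G`).
Left multiplication by `a` is injective: a nonzero `f` with `a f = 0` satisfies
`f (s z) = λ f z` with `s = h⁻¹ g`, `λ = -α/β`, so `s` has finite order `m` and `λ^m = 1`; then the
geometric sum `W = ∑_{j<m} (λ s)^j ≠ 0` kills `1 - λ s`, which contradicts `a b = 1`.
-/

open MonoidAlgebra

namespace Vale.Agent.Results.P194.SupportTwo

theorem inj_aux {K G : Type*} [Field K] [Group G] (g h : G) (α β : K) (b f : MonoidAlgebra K G)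
    (hab : (single g α + single h β) * b = 1) (hf : (single g α + single h β) * f = 0) : f = 0 := by
  classical
  have hpt : ∀ y, α * f.coeff (g⁻¹ * y) + β * f.coeff (h⁻¹ * y) = 0 := by
    intro y
    have := congrArg (fun F : MonoidAlgebra K G => F.coeff y) hf
    simpa [add_mul, coeff_single_mul_apply] using this
  by_contra hne
  obtain ⟨z0, hz0⟩ : ∃ z, f.coeff z ≠ 0 := by
    by_contra hcon
    push Not at hcon
    exact hne (coeff_injective (Finsupp.ext hcon))
  by_cases hβ : β = 0
  · by_cases hα : α = 0
    · rw [hα, hβ] at hab
      simp at hab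
    · have := hpt (g * z0)
      rw [hβ] at this
      simp [hα] at this
      exact hz0 this
  by_cases hα : α = 0
  · have := hpt (h * z0)
    rw [hα] at this
    simp [hβ] at this
    exact hz0 this
  set s : G := h⁻¹ * g with hs
  set lam : K := -(α / β) with hlam
  have hlam0 : lam ≠ 0 := by
    rw [hlam]; exact neg_ne_zero.2 (div_ne_zero hα hβ)
  have hstep : ∀ z, f.coeff (s * z) = lam * f.coeff z := by
    intro z
    have := hpt (g * z)
    rw [inv_mul_cancel_left, ← mul_assoc] at this
    rw [hs, hlam]
    field_simp
    linear_combination this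
  have hpow : ∀ (j : ℕ) z, f.coeff (s ^ j * z) = lam ^ j * f.coeff z := by
    intro j
    induction j with
    | zero => intro z; simp
    | succ j ih =>
      intro z
      rw [pow_succ', mul_assoc, hstep, ih]
      ring
  have hfin : IsOfFinOrder s := by
    by_contra hcon
    have hinj : Function.Injective fun n : ℕ => s ^ n := injective_pow_iff_not_isOfFinOrder.2 hcon
    have hinj2 : Function.Injective fun n : ℕ => s ^ n * z0 := fun i j hij =>
      hinj (mul_right_cancel hij)
    have hsub : Set.range (fun n : ℕ => s ^ n * z0) ⊆ (f.coeff.support : Set G) := by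
      rintro _ ⟨n, rfl⟩
      simp only [Finset.mem_coe, Finsupp.mem_support_iff]
      rw [hpow]
      exact mul_ne_zero (pow_ne_zero _ hlam0) hz0
    exact (Set.infinite_range_of_injective hinj2) (f.coeff.support.finite_toSet.subset hsub)
  set m := orderOf s with hm
  have hm0 : 0 < m := hfin.orderOf_pos
  have hlm : lam ^ m = 1 := by
    have := hpow m z0
    rw [hm, pow_orderOf_eq_one, one_mul] at this
    have h2 : (lam ^ orderOf s - 1) * f.coeff z0 = 0 := by linear_combination -this
    rcases mul_eq_zero.1 h2 with h3 | h3
    · rw [hm]; linear_combination h3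
    · exact absurd h3 hz0
  set x : MonoidAlgebra K G := single s lam with hx
  have hxm : x ^ m = 1 := by
    rw [hx, single_pow, hlm, hm, pow_orderOf_eq_one]; rfl
  have ha : single g α + single h β = single h β * (1 - x) := by
    rw [mul_sub, mul_one, hx, single_mul_single, hs, mul_inv_cancel_left, hlam]
    have : β * -(α / β) = -α := by field_simp
    rw [this, single_neg]
    abel
  set W : MonoidAlgebra K G := ∑ j ∈ Finset.range m, x ^ j with hW
  have hW0 : W * (1 - x) = 0 := by
    rw [hW, geom_sum_mul_neg, hxm, sub_self]
  have hunit : single h⁻¹ β⁻¹ * single h β = (1 : MonoidAlgebra K G) := by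
    rw [single_mul_single, inv_mul_cancel, inv_mul_cancel₀ hβ]; rfl
  have hWz : W * single h⁻¹ β⁻¹ = 0 := by
    calc W * single h⁻¹ β⁻¹ = W * single h⁻¹ β⁻¹ * ((single g α + single h β) * b) := by
          rw [hab, mul_one]
      _ = W * (single h⁻¹ β⁻¹ * single h β) * (1 - x) * b := by rw [ha]; simp only [mul_assoc]
      _ = 0 := by rw [hunit, mul_one, hW0, zero_mul]
  have hunit2 : single h⁻¹ β⁻¹ * single h β = (1 : MonoidAlgebra K G) := hunit
  have hWzero : W = 0 := by
    calc W = W * (single h⁻¹ β⁻¹ * single h β) := by rw [hunit, mul_one]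
      _ = 0 := by rw [← mul_assoc, hWz, zero_mul]
  have hW1 : W.coeff 1 = 1 := by
    rw [hW, coeff_sum]
    rw [Finsupp.finsetSum_apply]
    rw [Finset.sum_eq_single 0]
    · simp [one_def]
    · intro j hj hj0
      rw [hx, single_pow, coeff_single, Finsupp.single_apply, if_neg]
      exact pow_ne_one_of_lt_orderOf hj0 (Finset.mem_range.1 hj)
    · intro h0
      exact absurd (Finset.mem_range.2 hm0) h0
  rw [hWzero] at hW1
  simp at hW1

theorem result (K G : Type*) [Field K] [Group G] (g h : G) (α β : K) (b : MonoidAlgebra K G)
    (hab : (single g α + single h β) * b = 1) : b * (single g α + single h β) = 1 := by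
  have h0 : (single g α + single h β) * (b * (single g α + single h β) - 1) = 0 := by
    rw [mul_sub, ← mul_assoc, hab, one_mul, mul_one, sub_self]
  have := inj_aux g h α β b _ hab h0
  exact sub_eq_zero.1 this

end Vale.Agent.Results.P194.SupportTwo
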