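import Vale.Agent.Results.P194.SupportTwo

/-!
# P194: `ab = 1 → ba = 1` in `K[G]` as soon as ONE of `a`, `b` is supported on at most two elements
-/

open MonoidAlgebra

namespace Vale.Agent.Results.P194.SupportTwoEither

theorem inj_aux' {K G : Type*} [Field K] [Group G] (g h : G) (α β : K) (a f : MonoidAlgebra K G)
    (hab : a * (single g α + single h β) = 1) (hf : f * (single g α + single h β) = 0) : f = 0 := by
  classical
  have hpt : ∀ y, f.coeff (y * g⁻¹) * α + f.coeff (y * h⁻¹) * β = 0 := by
    intro y
    have := congrArg (fun F : MonoidAlgebra K G => F.coeff y) hf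
    simpa [mul_add, coeff_mul_single_apply] using this
  by_contra hne
  obtain ⟨z0, hz0⟩ : ∃ z, f.coeff z ≠ 0 := by
    by_contra hcon
    push Not at hcon
    exact hne (coeff_injective (Finsupp.ext hcon))
  by_cases hβ : β = 0
  · by_cases hα : α = 0
    · rw [hα, hβ] at hab
      simp at hab
    · have := hpt (z0 * g)
      rw [hβ] at this
      simp [hα] at this
      exact hz0 this
  by_cases hα : α = 0
  · have := hpt (z0 * h)
    rw [hα] at this
    simp [hβ] at this
    exact hz0 this
  set s : G := g * h⁻¹ with hs
  set lam : K := -(α / β) with hlam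
  have hlam0 : lam ≠ 0 := by
    rw [hlam]; exact neg_ne_zero.2 (div_ne_zero hα hβ)
  have hstep : ∀ z, f.coeff (z * s) = lam * f.coeff z := by
    intro z
    have := hpt (z * g)
    rw [mul_inv_cancel_right, mul_assoc] at this
    rw [hs, hlam]
    field_simp
    linear_combination this
  have hpow : ∀ (j : ℕ) z, f.coeff (z * s ^ j) = lam ^ j * f.coeff z := by
    intro j
    induction j with
    | zero => intro z; simp
    | succ j ih =>
      intro z
      rw [pow_succ, ← mul_assoc, hstep, ih]
      ring
  have hfin : IsOfFinOrder s := by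
    by_contra hcon
    have hinj : Function.Injective fun n : ℕ => s ^ n := injective_pow_iff_not_isOfFinOrder.2 hcon
    have hinj2 : Function.Injective fun n : ℕ => z0 * s ^ n := fun i j hij =>
      hinj (mul_left_cancel hij)
    have hsub : Set.range (fun n : ℕ => z0 * s ^ n) ⊆ (f.coeff.support : Set G) := by
      rintro _ ⟨n, rfl⟩
      simp only [Finset.mem_coe, Finsupp.mem_support_iff]
      rw [hpow]
      exact mul_ne_zero (pow_ne_zero _ hlam0) hz0
    exact (Set.infinite_range_of_injective hinj2) (f.coeff.support.finite_toSet.subset hsub)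
  set m := orderOf s with hm
  have hm0 : 0 < m := hfin.orderOf_pos
  have hlm : lam ^ m = 1 := by
    have := hpow m z0
    rw [hm, pow_orderOf_eq_one, mul_one] at this
    have h2 : (lam ^ orderOf s - 1) * f.coeff z0 = 0 := by linear_combination -this
    rcases mul_eq_zero.1 h2 with h3 | h3
    · rw [hm]; linear_combination h3
    · exact absurd h3 hz0
  set x : MonoidAlgebra K G := single s lam with hx
  have hxm : x ^ m = 1 := by
    rw [hx, single_pow, hlm, hm, pow_orderOf_eq_one]; rfl
  have hb : single g α + single h β = (1 - x) * single h β := by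
    rw [sub_mul, one_mul, hx, single_mul_single, hs, inv_mul_cancel_right, hlam]
    have : -(α / β) * β = -α := by field_simp
    rw [this, single_neg]
    abel
  set W : MonoidAlgebra K G := ∑ j ∈ Finset.range m, x ^ j with hW
  have hW0 : (1 - x) * W = 0 := by
    rw [hW, mul_neg_geom_sum, hxm, sub_self]
  have hunit : single h β * single h⁻¹ β⁻¹ = (1 : MonoidAlgebra K G) := by
    rw [single_mul_single, mul_inv_cancel, mul_inv_cancel₀ hβ]; rfl
  have hWz : single h⁻¹ β⁻¹ * W = 0 := by
    calc single h⁻¹ β⁻¹ * W = (a * (single g α + single h β)) * (single h⁻¹ β⁻¹ * W) := by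
          rw [hab, one_mul]
      _ = a * ((1 - x) * ((single h β * single h⁻¹ β⁻¹) * W)) := by rw [hb]; simp only [mul_assoc]
      _ = 0 := by rw [hunit, one_mul, hW0, mul_zero]
  have hWzero : W = 0 := by
    calc W = (single h β * single h⁻¹ β⁻¹) * W := by rw [hunit, one_mul]
      _ = 0 := by rw [mul_assoc, hWz, mul_zero]
  have hW1 : W.coeff 1 = 1 := by
    rw [hW, coeff_sum]
    rw [Finsupp.finsetSum_apply]
    rw [Finset.sum_eq_single 0]
    · simp [one_def]
    · intro j hj hj0
      rw [hx, single_pow, coeff_single, Finsupp.single_apply, if_neg]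
      exact pow_ne_one_of_lt_orderOf hj0 (Finset.mem_range.1 hj)
    · intro h0
      exact absurd (Finset.mem_range.2 hm0) h0
  rw [hWzero] at hW1
  simp at hW1

theorem result (K G : Type*) [Field K] [Group G] (g h : G) (α β : K) (c : MonoidAlgebra K G) :
    ((single g α + single h β) * c = 1 → c * (single g α + single h β) = 1) ∧
    (c * (single g α + single h β) = 1 → (single g α + single h β) * c = 1) := by
  refine ⟨SupportTwo.result K G g h α β c, fun hab => ?_⟩
  have h0 : ((single g α + single h β) * c - 1) * (single g α + single h β) = 0 := by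
    rw [sub_mul, mul_assoc, hab, one_mul, mul_one, sub_self]
  have := inj_aux' g h α β c _ hab h0
  exact sub_eq_zero.1 this

end Vale.Agent.Results.P194.SupportTwoEither
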